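import Vale.Agent.P236P.Refl
import Vale.Agent.P236L.Mul
import Vale.Agent.P236S.Bd
import Vale.Agent.P257.H545.T1P

/-! # P236, block HIGH: permanent cycles far above the line are killed

* `perData`: the data for periodicity for `b = bW ht`;
* `PerData.div_pow`: division of permanent cycles by `b ^ K`;
* `high`: if `w + 83 < 9 s`, then every permanent cycle of filtration `s` and weight `w` is killed
  from the filtrations `≥ s - 13`. -/

open CategoryTheory MonoidalCategory Limits Pretriangulated MonObj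

set_option linter.unusedSectionVars false

universe v u

namespace Vale.Agent.P236P

open Vale.Agent.P251 Vale.Agent.P251.T Vale.Agent.P251.F Vale.Agent.P251.I
  Vale.Agent.P251.M Vale.Agent.P257.H314 Vale.Agent.P257.H93 Vale.Agent.P236L Vale.Agent.P236S
open Vale.Agent.P251.S hiding IC

variable {T : Type u} [Category.{v} T] [Preadditive T] [HasZeroObject T]
    [HasShift T ℤ] [∀ n : ℤ, (shiftFunctor T n).Additive] [Pretriangulated T]
    [MonoidalCategory T] [SymmetricCategory T] [TensorTriangulated T] [HasCoproducts.{0} T]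
    [MonoidalClosed T] [IsTriangulated T] [HasProducts.{0} T] [StableCat T]
    {D : MUData T} {U : UnitCof D.R} {V : T} {i : 𝟙_ T ⟶ V}
    {t : Cob Laz 1} (ht : IsT1 3 t)

theorem d_bW : Cob.d 2 (bW ht).1 = 0 :=
  (BCocycle 3 (by norm_num) t ht).2.2.2.1

variable (G : Gen D U i (IC 3 1)) {m : V ⊗ V ⟶ V} (hm : (i ▷ V) ≫ m = (λ_ V).hom)

include G hm

/-- The data for periodicity. -/
theorem perData : PerData D U i (bW ht) where
  gen := G
  d_b := by
    rw [d_bW]
    exact zero_mem _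
  f_b := Vale.Agent.P257.H545.fP_bcls ht
  leib hs H := Dif.mul_perm hm rfl rfl hs (by norm_num) rfl rfl H (perm_bW ht)

omit hm in
/-- Below the vanishing line all cocycles are boundaries. -/
theorem bd_of_lt {s : ℕ} {w : ℤ} (hw : w < 2 * s) {y : Cob.wt Laz s w}
    (hy : Cob.d s y.1 ∈ IC 3 1 (s + 1)) : Bd D U i (s - 1) y := by
  have h1 : AlgVan 3 1 s w := algVan_line le_rfl fun h => by
    have := h.2
    push_cast at this
    omega
  cases s with
  | zero => exact G.bd_of_mem le_rfl (h1 y.1 y.2 hy)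
  | succ s =>
    obtain ⟨e, he, hye⟩ := h1 y.1 y.2 hy
    exact (G.bd_iff hy).2 ⟨⟨e, he⟩, hye⟩

/-- **Division of permanent cycles by `b ^ K`.** -/
theorem div_pow (hV : BigCell T 0 V) (K : ℕ) : ∀ (s : ℕ) (w : ℤ) (y : Cob.wt Laz s w),
    w + 12 * K < 9 * s + 1 → Cob.d s y.1 ∈ IC 3 1 (s + 1) → Perm D U i y →
    Bd D U i (s - 1) y ∨ ∃ (s₀ : ℕ) (w₀ : ℤ) (h : s₀ + 2 * K = s) (k : w₀ + 6 * (K : ℤ) = w)
      (z : Cob.wt Laz s₀ w₀), Perm D U i z ∧ Bd D U i (s - 1) (y - cupw h k z (bP ht K)) := by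
  induction K with
  | zero =>
    intro s w y _ _ H
    refine Or.inr ⟨s, w, rfl, by simp, y, H, ?_⟩
    have e : cupw (show s + 2 * 0 = s from rfl) (show w + 6 * ((0 : ℕ) : ℤ) = w by simp) y
        (bP ht 0) = y := Subtype.ext (cupc_one_right rfl y.1)
    rw [e, sub_self]
    exact bd_zero (Nat.sub_le _ _)
  | succ K ih =>
    intro s w y hl hy H
    by_cases hs : s ≤ 1
    · exact Or.inl (bd_of_lt G (by push_cast at hl; omega) hy)
    obtain ⟨s₁, rfl⟩ : ∃ s₁, s = s₁ + 2 := ⟨s - 2, by omega⟩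
    obtain ⟨w₁, rfl⟩ : ∃ w₁, w = w₁ + 6 := ⟨w - 6, by ring⟩
    obtain ⟨z₁, e, hz₁, Hz₁, he⟩ := (perData ht G hm).div hV (by push_cast at hl; omega) hy H
    have h1 : Bd D U i (s₁ + 1) (y - mb (bW ht) z₁) :=
      (bd_d e le_rfl).congr G (by
        rw [Cob.coe_dwt, ← neg_sub, AddSubgroup.coe_sub]
        exact neg_mem he)
    have h2 : ∀ x : Cob.wt Laz s₁ w₁, Bd D U i (s₁ - 1) x → Bd D U i (s₁ + 1) (mb (bW ht) x) :=
      fun x hx => (Bd.mul_perm hm rfl rfl (by norm_num) rfl hx (perm_bW ht)).mono (by omega)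
    rcases ih s₁ w₁ z₁ (by push_cast at hl; omega) hz₁ Hz₁ with h3 | ⟨s₀, w₀, h, k, z, Hz, h3⟩
    · have h4 := h1.add (h2 _ h3)
      rw [sub_add_cancel] at h4
      exact Or.inl h4
    · refine Or.inr ⟨s₀, w₀, by omega, by push_cast; omega, z, Hz, ?_⟩
      have h4 := h1.add (h2 _ h3)
      rw [mb_sub, sub_add_sub_cancel] at h4
      rw [bP_succ, ← cupw_assoc h rfl _ _ k rfl]
      exact h4

/-- **(P4)** Permanent cycles far above the line are killed by differentials of length at most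
`13`. -/
theorem high (S : Seed D U V 3) (hV : BigCell T 0 V) {s : ℕ} {w : ℤ} (hl : w + 83 < 9 * s)
    {y : Cob.wt Laz s w} (hy : Cob.d s y.1 ∈ IC 3 1 (s + 1)) (H : Perm D U i y) :
    Bd D U i (s - 13) y := by
  obtain ⟨t, ht⟩ := T1 3
  rcases div_pow ht G hm hV 7 s w y (by push_cast; omega) hy H with h | ⟨s₀, w₀, h, k, z, Hz, h1⟩
  · exact h.mono (by omega)
  · have h2 := Perm.mul_bd hm h k (show s₀ + 1 = s - 13 by omega) Hz (S.b7_one ht G)
    have h3 := (h1.mono (show s - 13 ≤ s - 1 by omega)).add h2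
    rwa [sub_add_cancel] at h3

end Vale.Agent.P236P
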