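import Vale.Agent.P236P.InjP
import Vale.Agent.P257.H545.InfP
import Vale.Agent.P257.H314.Desc

/-! # P236, block HIGH: multiplication by `β₁` on the cohomology of `Laz / I_h`

The five lemma for the `v_h`-Bockstein sequences carries the periodicity from the dual reduced
powers down to `Laz / 3`. -/

open MvPolynomial

namespace Vale.Agent.P236P

open Vale.Agent.P251 Vale.Agent.P251.F Vale.Agent.P257.H314 Vale.Agent.P257.H545
  Vale.Agent.P257.H93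
open Vale.Agent.P251.S hiding IC

section defs

variable {N : Type} [CommRing N] [LawRing N]

/-- Multiplication by `b` is onto, `H^s_w → H^{s+2}_{w+v}`. -/
def OntoN (b : Cob N 2) (v : ℤ) (s : ℕ) (w : ℤ) : Prop :=
  ∀ c : Cob N (s + 2), Cob.IsWt (w + v) c → Cob.d (s + 2) c = 0 →
    ∃ (c₀ : Cob N s) (e : Cob N (s + 1)), Cob.IsWt w c₀ ∧ Cob.IsWt (w + v) e ∧ Cob.d s c₀ = 0 ∧
      c = Cob.cup (a := s) (b := 2) c₀ b + Cob.d (s + 1) e

/-- Multiplication by `b` is injective, `H^{s+1}_w → H^{s+3}_{w+v}`. -/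
def InjN (b : Cob N 2) (v : ℤ) (s : ℕ) (w : ℤ) : Prop :=
  ∀ c : Cob N (s + 1), Cob.IsWt w c → Cob.d (s + 1) c = 0 →
    ∀ e : Cob N (s + 2), Cob.IsWt (w + v) e →
      Cob.cup (a := s + 1) (b := 2) c b = Cob.d (s + 2) e →
        ∃ c₀ : Cob N s, Cob.IsWt w c₀ ∧ Cob.d s c₀ = c

end defs

variable {p h : ℕ} [Fact p.Prime]

/-- The reduction of a cochain modulo `I_h`. -/
noncomputable abbrev rd (p h s : ℕ) : Cob Laz s →+* Cob (QI p h) s :=
  Cob.mapRing (Ideal.Quotient.mk (Laz.I p h)) s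

theorem vQ_cup {a b : ℕ} (x : Cob (QI p h) a) (y : Cob (QI p h) b) :
    Cob.cup (C (vQ p h) * x) y = C (vQ p h) * Cob.cup x y := by
  rw [Cob.cup, Cob.cup, map_mul, map_C_vQ, mul_assoc]

theorem red_cup {a b : ℕ} (x : Cob (QI p h) a) (y : Cob (QI p h) b) :
    red p h (a + b) (Cob.cup x y) = Cob.cup (red p h a x) (red p h b y) :=
  Cob.mapRing_cup (isLawHom_redQ p h) x y

theorem isWt_vQ_mul {s : ℕ} {w w' : ℤ} (hw : w' = w - ((p ^ h : ℤ) - 1)) {z : Cob (QI p h) s}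
    (hz : Cob.IsWt w' z) : Cob.IsWt w (C (vQ p h) * z) := by
  have := (isWt_C_vQ p h s).mul hz
  rwa [hw, add_sub_cancel] at this

theorem isWt_sub {N : Type} [CommRing N] [LawRing N] {s : ℕ} {w : ℤ} {x y : Cob N s}
    (hx : Cob.IsWt w x) (hy : Cob.IsWt w y) : Cob.IsWt w (x - y) :=
  (Cob.wt N s w).sub_mem hx hy

section step

variable {b : Cob (QI p h) 2} {v : ℤ} (hb : Cob.IsWt v b) (hdb : Cob.d 2 b = 0)

include hb hdb

theorem onto_step {s : ℕ} {w : ℤ} (h1 : OntoN (red p h 2 b) v s w)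
    (h2 : InjN b v s (w - ((p ^ h : ℤ) - 1))) (h3 : OntoN b v s (w - ((p ^ h : ℤ) - 1))) :
    OntoN b v s w := by
  intro c hc hdc
  obtain ⟨c₀, e, hc₀, he, hd₀, heq⟩ := h1 _ (isWt_red hc) (by rw [← red_d, hdc, map_zero])
  obtain ⟨c₀, hc₀', rfl⟩ := exists_red_eq hc₀
  obtain ⟨e, he', rfl⟩ := exists_red_eq he
  obtain ⟨u, hu, hdu⟩ := exists_of_red_eq_zero hc₀'.d (by rw [red_d, hd₀])
  have hcb : Cob.IsWt (w + v) (Cob.cup (a := s) (b := 2) c₀ b) := hc₀'.cup hb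
  obtain ⟨a, ha, hda⟩ := exists_of_red_eq_zero
    (z := c - Cob.cup (a := s) (b := 2) c₀ b - Cob.d (s + 1) e)
    (isWt_sub (isWt_sub hc hcb) he'.d) (by
      rw [map_sub, map_sub, red_d, heq]
      have := red_cup (a := s) (b := 2) c₀ b
      rw [this]
      ring)
  have hu0 : Cob.d (s + 1) u = 0 := by
    apply vQ_mul_eq_zero p h
    rw [← d_vQ_mul, ← hdu, Cob.d_d]
  have hub : Cob.cup (a := s + 1) (b := 2) u b = Cob.d (s + 2) (-a) := by
    apply vQ_mul_cancel p h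
    have h4 := congrArg (Cob.d (s + 2)) hda
    rw [map_sub, map_sub, hdc, Cob.d_d, d_cup_two _ hdb, hdu, d_vQ_mul] at h4
    have h5 := vQ_cup (a := s + 1) (b := 2) u b
    rw [h5] at h4
    rw [map_neg]
    have h6 : ∀ x y z : Cob (QI p h) (s + 3), 0 - x * y - 0 = x * z → x * y = x * -z := by
      intro x y z hxyz
      linear_combination -hxyz
    exact h6 _ _ _ h4
  obtain ⟨u', hu', hdu'⟩ := h2 u hu hu0 (-a) (by
    have := ha.neg
    rwa [show w + v - ((p : ℤ) ^ h - 1) = w - ((p : ℤ) ^ h - 1) + v by ring] at this) hub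
  have hub' : Cob.IsWt (w - ((p : ℤ) ^ h - 1) + v) (Cob.cup (a := s) (b := 2) u' b) :=
    hu'.cup hb
  obtain ⟨c₁, e₁, hc₁, he₁, hd₁, heq₁⟩ := h3 (a + Cob.cup (a := s) (b := 2) u' b)
    (Cob.IsWt.add (by
      rwa [show w + v - ((p : ℤ) ^ h - 1) = w - ((p : ℤ) ^ h - 1) + v by ring] at ha) hub') (by
      rw [map_add, d_cup_two _ hdb, hdu', hub, map_neg, add_neg_cancel])
  refine ⟨c₀ - C (vQ p h) * u' + C (vQ p h) * c₁, e + C (vQ p h) * e₁, ?_, ?_, ?_, ?_⟩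
  · exact (isWt_sub hc₀' (isWt_vQ_mul rfl hu')).add (isWt_vQ_mul rfl hc₁)
  · exact he'.add (isWt_vQ_mul (by ring) he₁)
  · rw [map_add, map_sub, d_vQ_mul, d_vQ_mul, hdu, hdu', hd₁]
    ring
  · have h4 := vQ_cup (a := s) (b := 2) u' b
    have h5 := vQ_cup (a := s) (b := 2) c₁ b
    rw [add_cup, sub_cup, h4, h5, map_add, d_vQ_mul]
    linear_combination hda + C (vQ p h) * heq₁

theorem inj_step {s : ℕ} {w : ℤ} (h1 : InjN (red p h 2 b) v s w)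
    (h2 : OntoN (red p h 2 b) v s w) (h3 : InjN b v s (w - ((p ^ h : ℤ) - 1))) :
    InjN b v s w := by
  intro c hc hdc e he hce
  obtain ⟨e₀, he₀, hd₀⟩ := h1 _ (isWt_red hc) (by rw [← red_d, hdc, map_zero]) _ (isWt_red he) (by
    have := red_cup (a := s + 1) (b := 2) c b
    rw [← this, hce]
    exact red_d e)
  obtain ⟨e₀, he₀', rfl⟩ := exists_red_eq he₀
  obtain ⟨u, hu, hdu⟩ := exists_of_red_eq_zero (z := c - Cob.d s e₀) (isWt_sub hc he₀'.d) (by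
    rw [map_sub, red_d, hd₀, sub_self])
  have hu0 : Cob.d (s + 1) u = 0 := by
    apply vQ_mul_eq_zero p h
    rw [← d_vQ_mul, ← hdu, map_sub, hdc, Cob.d_d, sub_zero]
  have heb : Cob.IsWt (w + v) (Cob.cup (a := s) (b := 2) e₀ b) := he₀'.cup hb
  have hdf : Cob.d (s + 2) (e - Cob.cup (a := s) (b := 2) e₀ b) =
      C (vQ p h) * Cob.cup (a := s + 1) (b := 2) u b := by
    have h4 := vQ_cup (a := s + 1) (b := 2) u b
    rw [map_sub, d_cup_two _ hdb, ← hce, ← h4, ← hdu, sub_cup]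
  obtain ⟨g, k, hg, hk, hdg, heq⟩ := h2 (red p h (s + 2) (e - Cob.cup (a := s) (b := 2) e₀ b))
    (isWt_red (isWt_sub he heb)) (by rw [← red_d, hdf, red_C_vQ_mul])
  obtain ⟨g, hg', rfl⟩ := exists_red_eq hg
  obtain ⟨k, hk', rfl⟩ := exists_red_eq hk
  obtain ⟨m, hm, hdm⟩ := exists_of_red_eq_zero hg'.d (by rw [red_d, hdg])
  have hgb : Cob.IsWt (w + v) (Cob.cup (a := s) (b := 2) g b) := hg'.cup hb
  obtain ⟨a, ha, hda⟩ := exists_of_red_eq_zero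
    (z := e - Cob.cup (a := s) (b := 2) e₀ b - Cob.cup (a := s) (b := 2) g b - Cob.d (s + 1) k)
    (isWt_sub (isWt_sub (isWt_sub he heb) hgb) hk'.d) (by
      rw [map_sub, map_sub, red_d, heq]
      have := red_cup (a := s) (b := 2) g b
      rw [this]
      ring)
  have hm0 : Cob.d (s + 1) m = 0 := by
    apply vQ_mul_eq_zero p h
    rw [← d_vQ_mul, ← hdm, Cob.d_d]
  have hub : Cob.cup (a := s + 1) (b := 2) (u - m) b = Cob.d (s + 2) a := by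
    apply vQ_mul_cancel p h
    have h4 := congrArg (Cob.d (s + 2)) hda
    rw [map_sub, map_sub, hdf, Cob.d_d, d_cup_two _ hdb, hdm, d_vQ_mul] at h4
    have h5 := vQ_cup (a := s + 1) (b := 2) m b
    rw [h5] at h4
    rw [sub_cup, ← h4]
    ring
  obtain ⟨n, hn, hdn⟩ := h3 (u - m) (isWt_sub hu hm) (by rw [map_sub, hu0, hm0, sub_zero]) a (by
    rwa [show w + v - ((p : ℤ) ^ h - 1) = w - ((p : ℤ) ^ h - 1) + v by ring] at ha) hub
  refine ⟨e₀ + g + C (vQ p h) * n, (he₀'.add hg').add (isWt_vQ_mul rfl hn), ?_⟩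
  rw [map_add, map_add, d_vQ_mul, hdn, hdm]
  linear_combination -hdu

end step

theorem eq_zero_of_neg {s : ℕ} {w : ℤ} (hw : w < 0) {z : Cob (QI p h) s} (hz : Cob.IsWt w z) :
    z = 0 := by
  obtain ⟨z, rfl⟩ := exists_lift_wt hz
  rw [eq_zero_of_isWt_neg hw z.2, map_zero]

/-- Periodicity at the level `h`, in weights `≤ W`. -/
def Per (b : Cob Laz 2) (h : ℕ) (W : ℤ) : Prop :=
  ∀ (s : ℕ) (w : ℤ), w ≤ W → w < 9 * s + 1 → OntoN (rd 3 h 2 b) 6 s w ∧ InjN (rd 3 h 2 b) 6 s w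

theorem per_step {b : Cob Laz 2} (hb : Cob.IsWt 6 b) (hdb : Cob.d 2 b ∈ IC 3 1 3) {h : ℕ}
    (hh : 1 ≤ h) {W : ℤ} (H : Per b (h + 1) W) : Per b h W := by
  have hb' : Cob.IsWt 6 (rd 3 h 2 b) := hb.mapRing (isLawHom_mkI 3 h)
  have hdb' : Cob.d 2 (rd 3 h 2 b) = 0 := by
    rw [← Cob.mapRing_d (isLawHom_mkI 3 h), mapRing_eq_zero_iff]
    exact IC_mono' hh 3 hdb
  have hr : red 3 h 2 (rd 3 h 2 b) = rd 3 (h + 1) 2 b := red_mapRing 3 h b
  have hpos : (1 : ℤ) ≤ ((3 : ℕ) : ℤ) ^ h - 1 := by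
    have : ((3 : ℕ) : ℤ) ^ 1 ≤ ((3 : ℕ) : ℤ) ^ h := pow_le_pow_right₀ (by norm_num) hh
    push_cast at this ⊢
    omega
  have key : ∀ (k : ℕ) (s : ℕ) (w : ℤ), w + 6 < k → w ≤ W → w < 9 * s + 1 →
      OntoN (rd 3 h 2 b) 6 s w ∧ InjN (rd 3 h 2 b) 6 s w := by
    intro k
    induction k with
    | zero =>
      intro s w hk _ _
      refine ⟨fun c hc _ => ⟨0, 0, (Cob.wt _ _ _).zero_mem, (Cob.wt _ _ _).zero_mem, map_zero _,
        ?_⟩, fun c hc _ _ _ _ => ⟨0, (Cob.wt _ _ _).zero_mem, ?_⟩⟩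
      · rw [eq_zero_of_neg (by push_cast at hk; omega) hc, map_zero, Cob.cup, map_zero, zero_mul,
          add_zero]
      · rw [eq_zero_of_neg (by push_cast at hk; omega) hc, map_zero]
    | succ k ih =>
      intro s w hk hW hs
      obtain ⟨h1, h2⟩ := H s w hW hs
      obtain ⟨h3, h4⟩ := ih s (w - (((3 : ℕ) : ℤ) ^ h - 1)) (by push_cast at hk hpos ⊢; omega)
        (by omega) (by omega)
      rw [← hr] at h1 h2
      exact ⟨onto_step hb' hdb' h1 h4 h3, inj_step hb' hdb' h2 h1 h4⟩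
  intro s w hW hs
  exact key (w + 7).toNat s w (by omega) hW hs

theorem rd_d {s : ℕ} (z : Cob Laz s) : rd p h (s + 1) (Cob.d s z) = Cob.d s (rd p h s z) :=
  Cob.mapRing_d (isLawHom_mkI p h) z

theorem rd_cup {a b : ℕ} (x : Cob Laz a) (y : Cob Laz b) :
    rd p h (a + b) (Cob.cup x y) = Cob.cup (rd p h a x) (rd p h b y) :=
  Cob.mapRing_cup (isLawHom_mkI p h) x y

theorem per_base {b : Cob Laz 2} (hb : Cob.IsWt 6 b) (hdb : Cob.d 2 b ∈ IC 3 1 3)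
    (hf : fP 3 2 b = Vale.Agent.P257.H134.bP 3 1 0) {h : ℕ} (hh : 1 ≤ h) {W : ℤ}
    (hW : W + 6 < ((3 : ℕ) : ℤ) ^ h - 1) : Per b h W := by
  have hdb' : Cob.d 2 (rd 3 h 2 b) = 0 := by
    rw [← rd_d, mapRing_eq_zero_iff]
    exact IC_mono' hh 3 hdb
  have hdP : dP 2 (Vale.Agent.P257.H134.bP 3 1 0) = 0 := by
    rw [← hf, ← fP_d, fP_IC hdb]
  intro s w hw hs
  have hw1 : w < ((3 : ℕ) : ℤ) ^ h - 1 := by omega
  have hw2 : w + 6 < ((3 : ℕ) : ℤ) ^ h - 1 := by omega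
  constructor
  · intro c hc hdc
    obtain ⟨c, rfl⟩ := exists_lift_wt hc
    rw [← rd_d, mapRing_eq_zero_iff] at hdc
    obtain ⟨c₀, e, hc₀, he, hd₀, heq⟩ := ontoP hs (fP_wt c.2) (by rw [← fP_d, fP_IC hdc])
    obtain ⟨z, hz, hdz, hfz⟩ := Vale.Agent.P257.H420.fI_surj hc₀ hd₀
    obtain ⟨z, hz', hdz', rfl⟩ := surj_of_inf hw1 hz hdz
    have hfz' : fP 3 s z = c₀ := hfz
    have hzb : Cob.IsWt (w + 6) (Cob.cup (a := s) (b := 2) z b) := hz'.cup hb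
    obtain ⟨y, hy, hyz⟩ := (cmpP (infCmp 3)).inj (n := s + 1) hh hw2
      (z := c.1 - Cob.cup (a := s) (b := 2) z b) (isWt_sub c.2 hzb) (by
        rw [map_sub]
        refine sub_mem hdc ?_
        rw [← mapRing_eq_zero_iff]
        change rd 3 h (s + 2 + 1) _ = 0
        rw [rd_d]
        have := rd_cup (p := 3) (h := h) (a := s) (b := 2) z b
        rw [this, d_cup_two _ hdb', ← rd_d, (mapRing_eq_zero_iff _).2 hdz', Cob.cup, map_zero,
          zero_mul]) (y := e) he (by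
        change dP (s + 1) e = fP 3 (s + 2) _
        have := fP_cup (p := 3) (a := s) (b := 2) z b
        rw [map_sub, this, heq, hfz', hf, add_sub_cancel_left])
    refine ⟨rd 3 h s z, rd 3 h (s + 1) y, hz'.mapRing (isLawHom_mkI 3 h),
      hy.mapRing (isLawHom_mkI 3 h), by rw [← rd_d, mapRing_eq_zero_iff]; exact hdz', ?_⟩
    rw [← mapRing_eq_zero_iff, map_sub, map_sub] at hyz
    have h1 := rd_cup (p := 3) (h := h) (a := s) (b := 2) z b
    rw [← h1, ← rd_d]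
    linear_combination hyz
  · intro c hc hdc e he hce
    obtain ⟨c, rfl⟩ := exists_lift_wt hc
    obtain ⟨e, rfl⟩ := exists_lift_wt he
    rw [← rd_d, mapRing_eq_zero_iff] at hdc
    have h1 := rd_cup (p := 3) (h := h) (a := s + 1) (b := 2) c.1 b
    have h2 : Cob.cup (a := s + 1) (b := 2) c.1 b - Cob.d (s + 2) e.1 ∈ IC 3 h (s + 3) := by
      rw [← mapRing_eq_zero_iff, map_sub]
      change rd 3 h (s + 1 + 2) _ - rd 3 h (s + 2 + 1) _ = 0
      rw [h1, rd_d, hce, sub_self]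
    have h3 := fP_IC h2
    have h4 := fP_cup (p := 3) (a := s + 1) (b := 2) c.1 b
    have h5 := fP_d (p := 3) (n := s + 2) e.1
    rw [map_sub, sub_eq_zero] at h3
    obtain ⟨c₀, hc₀, hd₀⟩ := injP hs (fP_wt c.2) (by rw [← fP_d, fP_IC hdc]) (fP_wt e.2) (by
      rw [← hf, ← h4, ← h5]
      exact h3)
    obtain ⟨y, hy, hyz⟩ := (cmpP (infCmp 3)).inj (n := s) hh hw1 c.2 hdc (y := c₀) hc₀ hd₀
    refine ⟨rd 3 h s y, hy.mapRing (isLawHom_mkI 3 h), ?_⟩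
    rw [← mapRing_eq_zero_iff, map_sub, sub_eq_zero] at hyz
    rw [← rd_d]
    exact hyz.symm

theorem per_one {b : Cob Laz 2} (hb : Cob.IsWt 6 b) (hdb : Cob.d 2 b ∈ IC 3 1 3)
    (hf : fP 3 2 b = Vale.Agent.P257.H134.bP 3 1 0) (W : ℤ) : Per b 1 W := by
  have key : ∀ k h : ℕ, 1 ≤ h → W + 6 < ((3 : ℕ) : ℤ) ^ (h + k) - 1 → Per b h W := by
    intro k
    induction k with
    | zero => exact fun h hh hW => per_base hb hdb hf hh hW
    | succ k ih =>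
      intro h hh hW
      exact per_step hb hdb hh (ih (h + 1) (by omega) (by rwa [add_right_comm, add_assoc]))
  refine key (W + 7).toNat 1 le_rfl ?_
  have h1 : 1 + (W + 7).toNat < 3 ^ (1 + (W + 7).toNat) := Nat.lt_pow_self (by norm_num)
  have h2 : ((1 + (W + 7).toNat : ℕ) : ℤ) < ((3 ^ (1 + (W + 7).toNat) : ℕ) : ℤ) := by
    exact_mod_cast h1
  rw [Nat.cast_pow] at h2
  omega

section final

variable {b : Cob.wt Laz 2 6} (hdb : Cob.d 2 b.1 ∈ IC 3 1 3)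
    (hf : fP 3 2 b.1 = Vale.Agent.P257.H134.bP 3 1 0)

include hdb hf

/-- **(P1)** Multiplication by `β₁` is onto above the line `9 s - w = 11`. -/
theorem onto_b {s : ℕ} {w : ℤ} (hs : w < 9 * s + 1) (c : Cob.wt Laz (s + 2) (w + 6))
    (hdc : Cob.d (s + 2) c.1 ∈ IC 3 1 (s + 3)) :
    ∃ (c₀ : Cob.wt Laz s w) (e : Cob.wt Laz (s + 1) (w + 6)), Cob.d s c₀.1 ∈ IC 3 1 (s + 1) ∧
      c.1 - Cob.cup (a := s) (b := 2) c₀.1 b.1 - Cob.d (s + 1) e.1 ∈ IC 3 1 (s + 2) := by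
  obtain ⟨c₀, e, hc₀, he, hd₀, heq⟩ := (per_one b.2 hdb hf w s w le_rfl hs).1 (rd 3 1 (s + 2) c.1)
    (c.2.mapRing (isLawHom_mkI 3 1)) (by rw [← rd_d, mapRing_eq_zero_iff]; exact hdc)
  obtain ⟨c₀, rfl⟩ := exists_lift_wt hc₀
  obtain ⟨e, rfl⟩ := exists_lift_wt he
  refine ⟨c₀, e, by rwa [← rd_d, mapRing_eq_zero_iff] at hd₀, ?_⟩
  rw [← mapRing_eq_zero_iff, map_sub, map_sub]
  have h1 := rd_cup (p := 3) (h := 1) (a := s) (b := 2) c₀.1 b.1
  change rd 3 1 (s + 2) _ - rd 3 1 (s + 2) _ - rd 3 1 (s + 1 + 1) _ = 0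
  rw [h1, rd_d, heq]
  ring

/-- **(P2)** Multiplication by `β₁` is injective above the line `9 s - w = 20`. -/
theorem inj_b {s : ℕ} {w : ℤ} (hs : w < 9 * s + 1) (c : Cob.wt Laz (s + 1) w)
    (hdc : Cob.d (s + 1) c.1 ∈ IC 3 1 (s + 2)) (e : Cob.wt Laz (s + 2) (w + 6))
    (hce : Cob.cup (a := s + 1) (b := 2) c.1 b.1 - Cob.d (s + 2) e.1 ∈ IC 3 1 (s + 3)) :
    ∃ c₀ : Cob.wt Laz s w, c.1 - Cob.d s c₀.1 ∈ IC 3 1 (s + 1) := by
  obtain ⟨c₀, hc₀, hd₀⟩ := (per_one b.2 hdb hf w s w le_rfl hs).2 (rd 3 1 (s + 1) c.1)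
    (c.2.mapRing (isLawHom_mkI 3 1)) (by rw [← rd_d, mapRing_eq_zero_iff]; exact hdc)
    (rd 3 1 (s + 2) e.1) (e.2.mapRing (isLawHom_mkI 3 1)) (by
      rw [← mapRing_eq_zero_iff, map_sub, sub_eq_zero] at hce
      have h1 := rd_cup (p := 3) (h := 1) (a := s + 1) (b := 2) c.1 b.1
      rw [← h1, ← rd_d]
      exact hce)
  obtain ⟨c₀, rfl⟩ := exists_lift_wt hc₀
  refine ⟨c₀, ?_⟩
  rw [← mapRing_eq_zero_iff, map_sub, sub_eq_zero]
  exact (hd₀.symm.trans (rd_d _).symm)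

end final

end Vale.Agent.P236P
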