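import Vale.Agent.P257.H93.OntoD

/-! # P236, block HIGH: multiplication by `b_{1,0}` on the cohomology of `P` at the prime three

Right multiplication by `b_{1,0}` is onto in `(s, w)` if `9 s - w > 11`, and injective if
`9 s - w > 20` (degrees of the target). -/

noncomputable section

namespace Vale.Agent.P236P

open Vale.Agent.P251.F Vale.Agent.P251.F.F3 Vale.Agent.P257.H919 Vale.Agent.P257.H93
  Vale.Agent.P257.H134 Vale.Agent.P257.H327 Finset

section coch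

variable {p : ℕ} {𝒢 : Grp p} {𝒳 : GSet 𝒢} {ℳ 𝒩 : Rep 𝒢} {s : ℕ} {v w : ℤ}

open Coch

/-- **Multiplication on the right by `b` is injective.** -/
theorem inj_coch (S : Four (triv 𝒢) ℳ 𝒩 ((triv 𝒢).shift v)) (τ : Coch 𝒳 𝒩 0) (σ : Coch 𝒳 ℳ 1)
    (b : Coch 𝒳 (triv 𝒢) 2)
    (hτ : ∀ {B : Type} [CommRing B] [FpA p B] (x : 𝒳.obj B) (g : ℕ → 𝒢.obj B),
      S.r.h (τ.f x g) = (1 : B))
    (hτσ : τ.d = σ.push S.δ) (hσb : σ.d = b.push S.i) (hτw : τ.IsWt v) (hσw : σ.IsWt v)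
    (hM : Van 𝒳 ℳ (s + 2) (w + v)) (hN : Van 𝒳 𝒩 (s + 1) (w + v))
    {c : Coch 𝒳 (triv 𝒢) (s + 1)} (hc : c.IsWt w) (hd : c.d = 0)
    {e : Coch 𝒳 (triv 𝒢) (s + 2)} (he : e.IsWt (w + v)) (hce : c.cup b = e.d) :
    ∃ c₀ : Coch 𝒳 (triv 𝒢) s, c₀.IsWt w ∧ c₀.d = c := by
  rw [van_succ] at hM hN
  obtain ⟨H, hH, hdH⟩ := hM (((-1 : ℤ) ^ (s + 1)) • c.cup σ - e.push S.i)
    (IsWt.sub (IsWt.zsmul (hc.cup hσw) _) (he.push _)) (by
      rw [d_sub, d_zsmul, d_cup_left hd, hσb, push_d, ← hce, push_cup, smul_smul, ← pow_add,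
        ← two_mul, pow_mul, show ((-1 : ℤ) ^ 2) = 1 by norm_num, one_pow, one_smul]
      exact sub_self _)
  obtain ⟨F, hF, hdF⟩ := hN (c.cup τ - H.push S.δ) (IsWt.sub (hc.cup hτw) (hH.push _)) (by
    rw [d_sub, d_cup_left hd, push_d, hdH, push_sub, S.push_push_i, sub_zero, push_zsmul,
      push_cup, ← hτσ]
    exact sub_self _)
  refine ⟨(F.push S.r).ofShift, ?_, ?_⟩
  · have h : (F.push S.r).ofShift.IsWt (w + v - v) := isWt_ofShift (hF.push S.r)
    rwa [add_sub_cancel_right] at h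
  · rw [d_ofShift, push_d, hdF, push_sub, S.push_push_δ, sub_zero, push_cup]
    refine ext' fun {B} _ _ x g => ?_
    rw [ofShift_f, cup_f, push_f, hτ]
    exact mul_one (c.f x g : B)

end coch

variable {p : ℕ} [hp : Fact p.Prime]

/-- **Right multiplication by `b_{1,k}` is injective.** -/
theorem inj_bP (hp2 : p ≠ 2) {k n : ℕ} {w : ℤ}
    (h1 : Van (pt (addG p)) (DG p k).rep (n + 2) (w + eD p (k + 1)))
    (h2 : Van (pt (addG p)) (DG p k).rep (n + 1) (w + eD p (k + 1) - eD p k))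
    {z : CobP p (n + 1)} (hz : IsWtP p (n + 1) w z) (hd : dP (n + 1) z = 0)
    {e : CobP p (n + 2)} (he : IsWtP p (n + 2) (w + eD p (k + 1)) e)
    (hze : cupP z (bP p 1 k) = dP (n + 2) e) :
    ∃ c₀ : CobP p n, IsWtP p n w c₀ ∧ dP n c₀ = z := by
  obtain ⟨F, hF, hdF⟩ := inj_coch (𝒳 := pt (addG p)) (s := n) (w := w)
    (fourD k) (tauD p k) (sigD p k) (ofP (-(bP p 1 k)))
    (fun {B} _ _ x g => coeff_pT (zc p k (g 0))) (tauD_d k) (sigD_d hp2 k) (isWt_tauD k)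
    (isWt_sigD k) h1 (van_shift.2 h2) (c := ofP z) (isWt_ofP.2 hz)
    (by rw [← ofP_dP, hd, ofP_zero]) (e := ofP (-e)) (isWt_ofP.2 he.neg) (by
      rw [← ofP_dP, map_neg, ← hze, ofP_neg, ofP_neg, ofP_cupP]
      exact Coch.ext' fun x g => by
        rw [Coch.neg_f, Coch.cup_f, Coch.cup_f, Coch.neg_f]
        change _ * _ = -(_ * _)
        ring)
  refine ⟨toP F, isWt_toP.2 hF, ?_⟩
  apply ofP_injective
  rw [ofP_dP, ofP_toP, hdF]

omit hp in
theorem three_le_wt {a : ℕ × ℕ} (ha : a ≠ (0, 0)) : 3 ≤ wt 3 a := by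
  have h := Mon.pow_le_wt 3 a
  have h1 : 1 ≤ a.1 + a.2 := by
    rcases a with ⟨i, j⟩
    by_contra h2
    apply ha
    simp only at h2
    ext <;> simp only <;> omega
  calc 3 = 3 ^ 1 := by norm_num
    _ ≤ 3 ^ (a.1 + a.2) := Nat.pow_le_pow_right (by norm_num) h1
    _ ≤ _ := h

omit hp in
theorem nine_le_wt {a : ℕ × ℕ} (h0 : a ≠ (0, 0)) (h1 : a ≠ (0, 1)) (h2 : a ≠ (1, 0)) :
    9 ≤ wt 3 a := by
  have h := Mon.pow_le_wt 3 a
  have h3 : 2 ≤ a.1 + a.2 := by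
    rcases a with ⟨i, j⟩
    by_contra h4
    simp only [ne_eq, Prod.mk.injEq, not_and] at h0 h1 h2 h4
    omega
  calc 9 = 3 ^ 2 := by norm_num
    _ ≤ 3 ^ (a.1 + a.2) := Nat.pow_le_pow_right (by norm_num) h3
    _ ≤ _ := h

omit hp in
/-- The weight of a monomial without `h_{1,0}` and `b_{1,0}`. -/
theorem mon_bound (x : Mon) (hh : (0, 0) ∉ x.h) (hb : (0, 0) ∉ x.b.support) :
    9 * x.s ≤ 2 * x.W 3 + 4 := by
  have h1 : 9 * x.h.card ≤ 2 * ∑ a ∈ x.h, wt 3 a + 4 := by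
    have h2 : ∀ a ∈ x.h, 9 ≤ 2 * wt 3 a + ((if a = (0, 1) then 3 else 0) +
        (if a = (1, 0) then 1 else 0)) := by
      intro a ha
      have h0 : a ≠ (0, 0) := fun h => hh (h ▸ ha)
      by_cases h3 : a = (0, 1)
      · subst h3
        simp [wt]
      · by_cases h4 : a = (1, 0)
        · subst h4
          simp [wt, sum_range_succ]
        · have := nine_le_wt h0 h3 h4
          omega
    have h5 := sum_le_sum h2
    rw [sum_const, smul_eq_mul, sum_add_distrib, sum_add_distrib, ← mul_sum, sum_ite_eq',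
      sum_ite_eq'] at h5
    split_ifs at h5 <;> omega
  have h2 : 3 * x.b.sum (fun _ n => n) ≤ x.b.sum (fun a n => n * wt 3 a) := by
    unfold Finsupp.sum
    rw [mul_sum]
    refine sum_le_sum fun a ha => ?_
    have h0 : a ≠ (0, 0) := fun h => hb (h ▸ ha)
    have := three_le_wt h0
    dsimp only
    nlinarith
  unfold Mon.s Mon.W
  omega

/-- The vanishing line with coefficients `{1, t, t²}`. -/
theorem van_D {s : ℕ} {w : ℤ} (h : w + 4 < 9 * s) : Van (pt (addG 3)) (DG 3 0).rep s w := by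
  refine van_DG fun x hh hb hs hw => ?_
  have h1 := mon_bound x hh hb
  rw [hs] at h1
  push_cast at hw
  omega

theorem eD_zero : eD 3 0 = 2 := rfl

theorem eD_one : eD 3 (0 + 1) = 6 := rfl

/-- Multiplication by `b_{1,0}` is onto above the line. -/
theorem ontoP {n : ℕ} {w : ℤ} (h : w < 9 * n + 1) {z : CobP 3 (n + 2)}
    (hz : IsWtP 3 (n + 2) (w + 6) z) (hd : dP (n + 2) z = 0) :
    ∃ (c₀ : CobP 3 n) (e : CobP 3 (n + 1)), IsWtP 3 n w c₀ ∧
      IsWtP 3 (n + 1) (w + 6) e ∧ dP n c₀ = 0 ∧ z = cupP c₀ (bP 3 1 0) + dP (n + 1) e := by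
  have := onto_bP (p := 3) (by norm_num) (k := 0) (n := n) (w := w + 6)
    (van_D (by push_cast; omega)) (van_D (by rw [eD_zero]; push_cast; omega)) hz hd
  rwa [eD_one, add_sub_cancel_right] at this

/-- Multiplication by `b_{1,0}` is injective above the line. -/
theorem injP {n : ℕ} {w : ℤ} (h : w < 9 * n + 1) {z : CobP 3 (n + 1)}
    (hz : IsWtP 3 (n + 1) w z) (hd : dP (n + 1) z = 0) {e : CobP 3 (n + 2)}
    (he : IsWtP 3 (n + 2) (w + 6) e) (hze : cupP z (bP 3 1 0) = dP (n + 2) e) :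
    ∃ c₀ : CobP 3 n, IsWtP 3 n w c₀ ∧ dP n c₀ = z :=
  inj_bP (p := 3) (by norm_num) (k := 0) (n := n) (w := w)
    (van_D (by rw [eD_one]; push_cast; omega))
    (van_D (by rw [eD_one, eD_zero]; push_cast; omega)) hz hd he hze

end Vale.Agent.P236P

end
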