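import Vale.Agent.P236P.Desc
import Vale.Agent.P236L.Api

/-! # P236, block HIGH: `β₁`-periodicity of the `MU` tower of `S/3` above a line

`mb b z = z ∪ b`.  Above the line `9 s - w = 11` the properties `Bd`, `Dif`, `Perm` of `z ∪ b`
are reflected to `z`. -/

open CategoryTheory MonoidalCategory Limits Pretriangulated MonObj

set_option linter.unusedSectionVars false

universe v u

namespace Vale.Agent.P236P

open Vale.Agent.P251 Vale.Agent.P251.T Vale.Agent.P251.F Vale.Agent.P251.I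
  Vale.Agent.P251.M Vale.Agent.P257.H314 Vale.Agent.P257.H93 Vale.Agent.P236L
open Vale.Agent.P251.S hiding IC

/-- Right multiplication by `b`. -/
noncomputable def mb (b : Cob.wt Laz 2 6) {s : ℕ} {w : ℤ} (z : Cob.wt Laz s w) :
    Cob.wt Laz (s + 2) (w + 6) := cupw rfl rfl z b

theorem coe_mb (b : Cob.wt Laz 2 6) {s : ℕ} {w : ℤ} (z : Cob.wt Laz s w) :
    (mb b z).1 = Cob.cup (a := s) (b := 2) z.1 b.1 := rfl

theorem mb_sub (b : Cob.wt Laz 2 6) {s : ℕ} {w : ℤ} (z z' : Cob.wt Laz s w) :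
    mb b (z - z') = mb b z - mb b z' :=
  Subtype.ext (Vale.Agent.P257.H545.sub_cup _ _ _)

theorem d_mb_mem {b : Cob.wt Laz 2 6} (hdb : Cob.d 2 b.1 ∈ IC 3 1 3) {s : ℕ} {w : ℤ}
    {z : Cob.wt Laz s w} (hz : Cob.d s z.1 ∈ IC 3 1 (s + 1)) :
    Cob.d (s + 2) (mb b z).1 ∈ IC 3 1 (s + 3) := by
  have hdb' : Cob.d 2 (rd 3 1 2 b.1) = 0 := by
    rw [← rd_d, mapRing_eq_zero_iff]
    exact hdb
  rw [← mapRing_eq_zero_iff]
  change rd 3 1 (s + 2 + 1) _ = 0
  have := rd_cup (p := 3) (h := 1) (a := s) (b := 2) z.1 b.1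
  rw [rd_d, coe_mb, this, Vale.Agent.P257.H545.d_cup_two _ hdb', ← rd_d,
    (mapRing_eq_zero_iff _).2 hz, Cob.cup, map_zero, zero_mul]

variable {T : Type u} [Category.{v} T] [Preadditive T] [HasZeroObject T]
    [HasShift T ℤ] [∀ n : ℤ, (shiftFunctor T n).Additive] [Pretriangulated T]
    [MonoidalCategory T] [SymmetricCategory T] [TensorTriangulated T] [HasCoproducts.{0} T]
    {D : MUData T} {U : UnitCof D.R} {V : T} {i : 𝟙_ T ⟶ V}

variable (D U i) in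
/-- The data for periodicity: the cobar complex of `V` is `Cob Laz / 3`, `b` represents `b_{1,0}`,
and multiplication by `b` preserves the differentials. -/
structure PerData (b : Cob.wt Laz 2 6) : Prop where
  gen : Gen D U i (IC 3 1)
  d_b : Cob.d 2 b.1 ∈ IC 3 1 3
  f_b : fP 3 2 b.1 = Vale.Agent.P257.H134.bP 3 1 0
  leib : ∀ {s s' : ℕ} {w w' : ℤ} {x : Cob.wt Laz s w} {y : Cob.wt Laz s' w'}, s + 3 ≤ s' →
    Dif D U i x y → Dif D U i (mb b x) (mb b y)

variable {b : Cob.wt Laz 2 6} (P : PerData D U i b)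

include P

/-- Transport of differentials, given the reflection of boundaries one filtration higher. -/
theorem PerData.dif_aux {t s' : ℕ} {w₀ w' : ℤ} {u : Cob.wt Laz t w₀}
    (hu : Cob.d t u.1 ∈ IC 3 1 (t + 1)) {y : Cob.wt Laz (s' + 2) (w' + 6)}
    (H : Dif D U i (mb b u) y) (hs : t + 3 ≤ s')
    (ih : ∀ (s'' : ℕ) (w'' : ℤ) (z : Cob.wt Laz s'' w''), t + 3 ≤ s'' → s'' < s' →
      2 * w'' - s'' = 2 * w₀ - t - 1 → Cob.d s'' z.1 ∈ IC 3 1 (s'' + 1) →
      Bd D U i (t + 3) (mb b z) → Bd D U i (t + 1) z) :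
    ∃ z : Cob.wt Laz s' w', Cob.d s' z.1 ∈ IC 3 1 (s' + 1) ∧ Dif D U i u z := by
  have hdeg := H.deg
  have key : ∀ j : ℕ, t + 3 + 2 * j ≤ s' → ∃ z : Cob.wt Laz (t + 3 + 2 * j) (w₀ + 1 + j),
      Cob.d _ z.1 ∈ IC 3 1 (t + 3 + 2 * j + 1) ∧ Dif D U i u z := by
    intro j
    induction j with
    | zero => exact fun _ => P.gen.start hu rfl (by simp)
    | succ j ihj =>
      intro hj
      obtain ⟨z, hz, hd⟩ := ihj (by omega)
      have h1 : Dif D U i (mb b u) (mb b z) := P.leib (by omega) hd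
      have h2 : Dif D U i (mb b u) (0 : Cob.wt Laz (t + 3 + 2 * j + 2) (w₀ + 1 + j + 6)) :=
        H.zero_of_lt (by omega) (by omega) (by push_cast; omega)
      have h3 := h1.bd_sub h2
      rw [sub_zero] at h3
      exact P.gen.step hd (ih _ _ z (by omega) (by omega) (by push_cast; omega) hz h3) (by ring)
        (by push_cast; ring)
  obtain ⟨j, hj⟩ : ∃ j : ℕ, s' = t + 3 + 2 * j :=
    ⟨(w' - w₀ - 1).toNat, by push_cast at hdeg; omega⟩
  subst hj
  obtain rfl : w' = w₀ + 1 + j := by push_cast at hdeg; omega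
  exact key j le_rfl

theorem PerData.bd_aux (k : ℕ) : ∀ (t s' : ℕ) (w' : ℤ) (z : Cob.wt Laz s' w'), s' = t + 1 + k →
    2 * w' - s' < 17 * t + 1 → Cob.d s' z.1 ∈ IC 3 1 (s' + 1) →
    Bd D U i (t + 2) (mb b z) → Bd D U i t z := by
  induction k using Nat.strong_induction_on with
  | _ k ih =>
  intro t s' w' z hs hl hz H
  rcases Nat.eq_zero_or_pos k with rfl | hk
  · obtain rfl : s' = t + 1 := hs
    obtain ⟨e, he⟩ := (P.gen.bd_iff (s := t + 2) (y := mb b z) (d_mb_mem P.d_b hz)).1 H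
    exact (P.gen.bd_iff hz).2 (inj_b P.d_b P.f_b (by push_cast at hl; omega) z hz e he)
  rcases Nat.even_or_odd' k with ⟨j, rfl | rfl⟩
  · obtain ⟨w₀, hw₀⟩ : ∃ w₀ : ℤ, w₀ = w' - j := ⟨_, rfl⟩
    obtain ⟨u, hu, hd⟩ := P.gen.hit H (by omega) (w₀ := w₀ + 6) (by
      subst hs; push_cast; omega)
    obtain ⟨u₁, e, hu₁, he⟩ := onto_b P.d_b P.f_b (s := t) (w := w₀) (by
      subst hs; push_cast at hl; omega) u (hu (by omega))
    have h1 : Dif D U i (mb b u₁) (mb b z) := by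
      refine hd.of_perm_sub ?_
      refine ((bd_d (t := 0) (-e) (Nat.zero_le _)).perm).congr P.gen ?_
      have h2 : (Cob.dwt Laz (t + 1) (w₀ + 6) (-e)).1 - (mb b u₁ - u).1 =
          u.1 - Cob.cup (a := t) (b := 2) u₁.1 b.1 - Cob.d (t + 1) e.1 := by
        rw [Cob.coe_dwt, AddSubgroup.coe_neg, map_neg, AddSubgroup.coe_sub, coe_mb]
        ring
      rw [h2]
      exact he
    obtain ⟨z₁, hz₁, hd₁⟩ := P.dif_aux hu₁ h1 (by omega) fun s'' w'' z' h3 h4 h5 h6 h7 =>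
      ih (s'' - t - 2) (by omega) (t + 1) s'' w'' z' (by omega) (by
        subst hs; push_cast at hl ⊢; omega) h6 h7
    have h3 := (P.leib (by omega) hd₁).bd_sub h1
    rw [← mb_sub] at h3
    have h4 := ih (2 * j - 1) (by omega) (t + 1) s' w' (z₁ - z) (by omega) (by
      push_cast at hl ⊢; omega) (by
        rw [AddSubgroup.coe_sub, map_sub]
        exact sub_mem hz₁ hz) h3
    have h5 := hd₁.bd.sub (h4.mono (Nat.le_succ t))
    rwa [sub_sub_cancel] at h5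
  · have h1 := P.gen.bd_succ_of_even H (by omega) (j + 1) (by omega)
    exact (ih (2 * j) (by omega) (t + 1) s' w' z (by omega) (by push_cast at hl ⊢; omega) hz
      h1).mono (Nat.le_succ t)

/-- **Reflection of boundaries.** `2 w' - s'` is the stem of `z`. -/
theorem PerData.bd {t s' : ℕ} {w' : ℤ} {z : Cob.wt Laz s' w'} (hs : t + 1 ≤ s')
    (hl : 2 * w' - s' < 17 * t + 1) (hz : Cob.d s' z.1 ∈ IC 3 1 (s' + 1))
    (H : Bd D U i (t + 2) (mb b z)) : Bd D U i t z :=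
  P.bd_aux (s' - t - 1) t s' w' z (by omega) hl hz H

/-- **Reflection of differentials.** -/
theorem PerData.dif {t s' : ℕ} {w₀ w' : ℤ} {u : Cob.wt Laz t w₀} (hl : w₀ < 9 * t + 10)
    (hu : Cob.d t u.1 ∈ IC 3 1 (t + 1)) {y : Cob.wt Laz (s' + 2) (w' + 6)}
    (H : Dif D U i (mb b u) y) (hs : t + 3 ≤ s') :
    ∃ z : Cob.wt Laz s' w', Cob.d s' z.1 ∈ IC 3 1 (s' + 1) ∧ Dif D U i u z ∧
      Bd D U i (t + 3) (mb b z - y) := by
  obtain ⟨z, hz, hd⟩ := P.dif_aux hu H hs fun s'' w'' z' h3 _ h5 h6 h7 =>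
    P.bd (by omega) (by push_cast; omega) h6 h7
  exact ⟨z, hz, hd, (P.leib hs hd).bd_sub H⟩

variable [MonoidalClosed T] [IsTriangulated T] [HasProducts.{0} T] [StableCat T]

/-- **Reflection of permanent cycles.** -/
theorem PerData.perm (hV : BigCell T 0 V) {t : ℕ} {w₀ : ℤ} {u : Cob.wt Laz t w₀}
    (hl : w₀ < 9 * t + 10) (hu : Cob.d t u.1 ∈ IC 3 1 (t + 1)) (H : Perm D U i (mb b u)) :
    Perm D U i u := by
  refine P.gen.perm hV hu fun s' w' y hs hy hd => ?_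
  have hdeg := hd.deg
  exact P.bd (by omega) (by push_cast; omega) hy (H.bd (P.leib hs hd))

/-- **Division of permanent cycles by `b`.** -/
theorem PerData.div (hV : BigCell T 0 V) {s : ℕ} {w : ℤ} (hl : w < 9 * s + 1)
    {y : Cob.wt Laz (s + 2) (w + 6)} (hy : Cob.d (s + 2) y.1 ∈ IC 3 1 (s + 3))
    (H : Perm D U i y) : ∃ (z : Cob.wt Laz s w) (e : Cob.wt Laz (s + 1) (w + 6)),
      Cob.d s z.1 ∈ IC 3 1 (s + 1) ∧ Perm D U i z ∧
        y.1 - (mb b z).1 - Cob.d (s + 1) e.1 ∈ IC 3 1 (s + 2) := by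
  obtain ⟨z, e, hz, he⟩ := onto_b P.d_b P.f_b hl y hy
  refine ⟨z, e, hz, P.perm hV (by omega) hz ?_, he⟩
  refine (H.add ((bd_d (t := 0) (-e) (Nat.zero_le _)).perm)).congr P.gen ?_
  have h2 : (y + Cob.dwt Laz (s + 1) (w + 6) (-e)).1 - (mb b z).1 =
      y.1 - Cob.cup (a := s) (b := 2) z.1 b.1 - Cob.d (s + 1) e.1 := by
    rw [AddSubgroup.coe_add, Cob.coe_dwt, AddSubgroup.coe_neg, map_neg, coe_mb]
    ring
  rw [h2]
  exact he

end Vale.Agent.P236P
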